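import Vale.Agent.P043.R2.Fill
import Vale.Agent.P043.R2.Data.SideA
import Vale.Agent.P043.R2.Data.SideB

/-!
Helper for P043 (aperiodic tile of the plane): every pool of side A glues to every pool of side B.
-/

namespace Vale.Agent.P043.R2

/-- For each pair of pools the block data of a fill. -/
def fills : List (ℕ × ℕ × ℕ × ℕ × ℕ × ℕ × ℕ) :=
  [(7, 17, 5, 13, 13, 1, 0),
   (7, 17, 5, 14, 14, 1, 0),
   (7, 17, 11, 25, 2, 0, 1),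
   (7, 17, 31, 63, 3, 0, 1),
   (7, 17, 31, 65, 9, 0, 1),
   (7, 17, 31, 66, 12, 0, 1),
   (7, 17, 31, 91, 27, 0, 2),
   (7, 17, 37, 76, 13, 0, 1),
   (7, 17, 37, 81, 27, 0, 1),
   (7, 17, 37, 82, 15, 0, 1),
   (7, 17, 47, 113, 40, 0, 1),
   (7, 17, 53, 107, 44, 0, 1),
   (7, 17, 53, 115, 25, 0, 1),
   (7, 19, 5, 13, 13, 2, 0),
   (7, 19, 5, 14, 14, 2, 0),
   (7, 19, 11, 25, 9, 0, 1),
   (7, 19, 31, 63, 16, 0, 1),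
   (7, 19, 31, 65, 17, 0, 1),
   (7, 19, 31, 66, 2, 0, 1),
   (7, 19, 31, 91, 14, 0, 2),
   (7, 19, 37, 76, 23, 0, 1),
   (7, 19, 37, 81, 25, 0, 1),
   (7, 19, 37, 82, 18, 0, 1),
   (7, 19, 47, 113, 1, 0, 1),
   (7, 19, 53, 107, 21, 0, 1),
   (7, 19, 53, 115, 30, 0, 1),
   (13, 28, 5, 13, 13, 1, 0),
   (13, 28, 5, 14, 14, 1, 0),
   (13, 28, 11, 25, 5, 0, 1),
   (13, 28, 31, 63, 6, 0, 1),
   (13, 28, 31, 65, 18, 0, 1),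
   (13, 28, 31, 66, 24, 0, 1),
   (13, 28, 31, 91, 19, 0, 1),
   (13, 28, 37, 76, 29, 0, 1),
   (13, 28, 37, 81, 9, 0, 1),
   (13, 28, 37, 82, 5, 0, 1),
   (13, 28, 47, 113, 7, 0, 1),
   (13, 28, 53, 107, 7, 0, 1),
   (13, 28, 53, 115, 10, 0, 1),
   (17, 35, 5, 13, 3, 0, 1),
   (17, 35, 5, 14, 4, 0, 1),
   (17, 35, 11, 25, 2, 0, 1),
   (17, 35, 31, 63, 19, 0, 1),
   (17, 35, 31, 65, 26, 0, 1),
   (17, 35, 31, 66, 14, 0, 1),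
   (17, 35, 31, 91, 24, 0, 1),
   (17, 35, 37, 76, 24, 0, 1),
   (17, 35, 37, 81, 10, 0, 1),
   (17, 35, 37, 82, 22, 0, 1),
   (17, 35, 47, 113, 2, 0, 1),
   (17, 35, 53, 107, 27, 0, 1),
   (17, 35, 53, 115, 31, 0, 1),
   (17, 37, 5, 13, 13, 1, 0),
   (17, 37, 5, 14, 14, 1, 0),
   (17, 37, 11, 25, 1, 0, 1),
   (17, 37, 31, 63, 28, 0, 1),
   (17, 37, 31, 65, 22, 0, 1),
   (17, 37, 31, 66, 19, 0, 1),
   (17, 37, 31, 91, 6, 0, 1),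
   (17, 37, 37, 76, 2, 0, 1),
   (17, 37, 37, 81, 7, 0, 1),
   (17, 37, 37, 82, 8, 0, 1),
   (17, 37, 47, 113, 44, 0, 1),
   (17, 37, 53, 107, 30, 0, 1),
   (17, 37, 53, 115, 5, 0, 1),
   (17, 38, 5, 13, 1, 0, 1),
   (17, 38, 5, 14, 3, 0, 1),
   (17, 38, 11, 25, 6, 0, 1),
   (17, 38, 31, 63, 17, 0, 1),
   (17, 38, 31, 65, 20, 0, 1),
   (17, 38, 31, 66, 6, 0, 1),
   (17, 38, 31, 91, 3, 2, 1),
   (17, 38, 37, 76, 28, 0, 1),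
   (17, 38, 37, 81, 24, 0, 1),
   (17, 38, 37, 82, 1, 0, 1),
   (17, 38, 47, 113, 18, 0, 1),
   (17, 38, 53, 107, 5, 0, 1),
   (17, 38, 53, 115, 45, 0, 1),
   (19, 46, 5, 13, 1, 0, 1),
   (19, 46, 5, 14, 3, 0, 1),
   (19, 46, 11, 25, 5, 0, 1),
   (19, 46, 31, 63, 10, 0, 1),
   (19, 46, 31, 65, 30, 0, 1),
   (19, 46, 31, 66, 9, 0, 1),
   (19, 46, 31, 91, 11, 0, 1),
   (19, 46, 37, 76, 3, 0, 1),
   (19, 46, 37, 81, 29, 0, 1),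
   (19, 46, 37, 82, 12, 0, 1),
   (19, 46, 47, 113, 20, 0, 1),
   (19, 46, 53, 107, 46, 0, 1),
   (19, 46, 53, 115, 43, 0, 1),
   (23, 47, 5, 13, 1, 0, 1),
   (23, 47, 5, 14, 3, 0, 1),
   (23, 47, 11, 25, 5, 0, 1),
   (23, 47, 31, 63, 3, 0, 1),
   (23, 47, 31, 65, 9, 0, 1),
   (23, 47, 31, 66, 12, 0, 1),
   (23, 47, 31, 91, 25, 0, 1),
   (23, 47, 37, 76, 14, 0, 1),
   (23, 47, 37, 81, 12, 0, 1),
   (23, 47, 37, 82, 19, 0, 1),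
   (23, 47, 47, 113, 19, 0, 1),
   (23, 47, 53, 107, 22, 0, 1),
   (23, 47, 53, 115, 39, 0, 1),
   (23, 51, 5, 13, 13, 2, 0),
   (23, 51, 5, 14, 14, 2, 0),
   (23, 51, 11, 25, 4, 0, 1),
   (23, 51, 31, 63, 19, 0, 1),
   (23, 51, 31, 65, 26, 0, 1),
   (23, 51, 31, 66, 14, 0, 1),
   (23, 51, 31, 91, 24, 0, 1),
   (23, 51, 37, 76, 4, 0, 1),
   (23, 51, 37, 81, 14, 0, 1),
   (23, 51, 37, 82, 16, 0, 1),
   (23, 51, 47, 113, 30, 0, 1),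
   (23, 51, 53, 107, 8, 0, 1),
   (23, 51, 53, 115, 19, 0, 1),
   (23, 52, 5, 13, 1, 0, 1),
   (23, 52, 5, 14, 3, 0, 1),
   (23, 52, 11, 25, 1, 0, 1),
   (23, 52, 31, 63, 23, 0, 1),
   (23, 52, 31, 65, 7, 0, 1),
   (23, 52, 31, 66, 30, 0, 1),
   (23, 52, 31, 91, 16, 0, 1),
   (23, 52, 37, 76, 20, 0, 1),
   (23, 52, 37, 81, 33, 0, 1),
   (23, 52, 37, 82, 6, 0, 1),
   (23, 52, 47, 113, 21, 0, 1),
   (23, 52, 53, 107, 31, 0, 1),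
   (23, 52, 53, 115, 14, 0, 1),
   (43, 88, 5, 13, 13, 1, 0),
   (43, 88, 5, 14, 14, 1, 0),
   (43, 88, 11, 25, 3, 0, 1),
   (43, 88, 31, 63, 4, 0, 1),
   (43, 88, 31, 65, 12, 0, 1),
   (43, 88, 31, 66, 16, 0, 1),
   (43, 88, 31, 91, 23, 0, 1),
   (43, 88, 37, 76, 22, 0, 1),
   (43, 88, 37, 81, 3, 0, 1),
   (43, 88, 37, 82, 14, 0, 1),
   (43, 88, 47, 113, 14, 0, 1),
   (43, 88, 53, 107, 31, 0, 1),
   (43, 88, 53, 115, 14, 0, 1),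
   (43, 112, 5, 13, 1, 0, 1),
   (43, 112, 5, 14, 3, 0, 1),
   (43, 112, 11, 25, 9, 0, 1),
   (43, 112, 31, 63, 2, 0, 1),
   (43, 112, 31, 65, 6, 0, 1),
   (43, 112, 31, 66, 8, 0, 1),
   (43, 112, 31, 91, 28, 0, 2),
   (43, 112, 37, 76, 14, 0, 1),
   (43, 112, 37, 81, 12, 0, 1),
   (43, 112, 37, 82, 19, 0, 1),
   (43, 112, 47, 113, 34, 0, 1),
   (43, 112, 53, 107, 44, 0, 1),
   (43, 112, 53, 115, 25, 0, 1)]

/-- A fill of `fills` belongs to the pair of pools and checks. -/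
def pairOK (p q : ℕ × ℕ) : Bool :=
  fills.any fun w =>
    (w.1 == p.1) && (w.2.1 == p.2) && (w.2.2.1 == q.1) && (w.2.2.2.1 == q.2) &&
      fillAuto p.1 p.2 q.1 q.2 w.2.2.2.2.1 w.2.2.2.2.2.1 w.2.2.2.2.2.2

theorem pairs_check :
    (SideA.sizes.all fun p => SideB.sizes.all fun q => pairOK p q) = true := by decide +kernel

theorem sides_glue : ∀ p ∈ SideA.sizes, ∀ q ∈ SideB.sizes, Glues p.1 p.2 q.1 q.2 := by
  intro p hp q hq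
  have h := List.all_eq_true.1 (List.all_eq_true.1 pairs_check p hp) q hq
  unfold pairOK at h
  obtain ⟨w, -, hw⟩ := List.any_eq_true.1 h
  simp only [Bool.and_eq_true] at hw
  exact glues_of_fillAuto hw.2

end Vale.Agent.P043.R2
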